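import Vale.Agent.P161.Limit
import Vale.Agent.P161.Edge.FreeState
import Vale.Agent.P161.Edge.Converse
import Vale.Agent.P161.Edge.Endpoint

/-!
The free Ising state on a regular tree is a factor of IID exactly in the non-reconstruction
regime, the critical coupling included.
-/

namespace Vale.Agent.Results.P161.FreeIsingThreshold

open MeasureTheory Vale.Agent.P161

/-- For every `d ≥ 3`, every `d`-regular tree and every `β ≥ 0`, the free Ising state exists and
is unique, and it is a factor of IID if and only if `tanh β ≤ (d - 1)^(-1/2)`. -/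
theorem result (d : ℕ) (hd : 3 ≤ d) (V : Type) (G : SimpleGraph V) (hG : G.IsTree)
    (hdeg : ∀ v : V, (G.neighborSet v).ncard = d) (β : ℝ) (hβ : 0 ≤ β) :
    (∃! μ : Measure (V → Bool), IsFreeIsing G (Real.tanh β) μ) ∧
      ∀ μ : Measure (V → Bool), IsFreeIsing G (Real.tanh β) μ →
        (IsFactorOfIID G μ ↔ Real.tanh β ≤ (Real.sqrt ((d : ℝ) - 1))⁻¹) := by
  have h0 : 0 ≤ Real.tanh β := by
    rw [Real.tanh_eq_sinh_div_cosh]
    exact div_nonneg (Real.sinh_nonneg_iff.2 hβ) (Real.cosh_pos β).le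
  have h1 : Real.tanh β < 1 := Real.tanh_lt_one β
  obtain ⟨μ₀, hμ₀⟩ := Edge.FreeState.exists_isFreeIsing hG hdeg hd ⟨h0, h1⟩
  refine ⟨⟨μ₀, hμ₀, fun μ hμ => Edge.FreeState.isFreeIsing_unique hG hdeg hd hμ hμ₀⟩,
    fun μ hμ => ⟨fun h => ?_, fun h => ?_⟩⟩
  · by_contra hc
    exact Edge.not_isFactorOfIID hG hdeg hd (not_le.1 hc) h1 hμ h
  · rcases h.lt_or_eq with hlt | heq
    · exact isFactorOfIID_of_isFreeIsing hG hdeg ⟨hd, h0, hlt⟩ hμ
    · obtain ⟨μ', hμ', hf⟩ := Edge.endpoint d hd V G hG hdeg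
      rw [← heq] at hμ'
      rwa [Edge.FreeState.isFreeIsing_unique hG hdeg hd hμ hμ']

end Vale.Agent.Results.P161.FreeIsingThreshold
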